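import Vale.Agent.P281.H152.UC.OrbAct
import Vale.Agent.P281.H83.ImmOpen
import Vale.Agent.P281.H152.UC.Pack

/-!
# P281, T-UD (helper152): the family of local data over `Y ∖ S`, its immersivity, the flows.
-/

open Set Filter Metric MeasureTheory Vale.Agent.P281 Vale.Agent.P281.H713 Vale.Agent.P272.K
open scoped Topology ContDiff Manifold ComplexConjugate NNReal

noncomputable section

namespace Vale.Agent.P281.H152.UC

open Vale.Agent.P281.H64 (Mark Qf)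
open Vale.Agent.P281.H64.TK Vale.Agent.P281.H603.K Vale.Agent.P281.H864.K
open Vale.Agent.P281.H603.TE Vale.Agent.P281.H603.C
open Vale.Agent.P281.H152.R hiding Cm
open Vale.Agent.P281.H349.O (IsImm Tan bs Cpt Flat)
open Vale.Agent.P281.H303.UC (FL cL HL ImL NL IsCmp FL_add exists_cmp shr IsFlow)
open Vale.Agent.P281.H303.UD (IsImmE ImmF)
open Vale.Agent.P281.H83 (IsImmS immS_iso isoHol_of)

attribute [local instance] ccs

variable {p d : ℕ} {Z Y : Type} [TopologicalSpace Z] [T2Space Z] [ChartedSpace (Cm (p + d)) Z]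
  [IsManifold 𝓘(ℂ, Cm (p + d)) ω Z] [TopologicalSpace Y] [T2Space Y] [ChartedSpace (Cm p) Y]
  [IsManifold 𝓘(ℂ, Cm p) ω Y] {f : Z → Y} {C : Ctx (p := p) (d := d) f} {m n g : ℕ}
  {B : Matrix (Fin n) (Fin n) ℝ}

theorem HL_an (L : DLocC C m B g) (i : Fin (fsub L.𝓕 (core L.Γ m)).N)
    {t : Cm p} (ht : t ∈ L.T') {z : Cm d} (hz : z ∈ ball (0 : Cm d) 3) :
    AnalyticAt ℂ (HL L i) (t, z) := by
  have h1 : AnalyticAt ℂ (fun q : Cm p × Cm d =>
      L.F q.1 ((fsub L.𝓕 (core L.Γ m)).σ i q.1 q.2)) (t, z) :=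
    analyticAt_pi_iff.2 fun j => L.holF i t ht z hz j
  exact (((PiLp.continuousLinearEquiv 2 ℂ (fun _ : Fin g => ℂ)).symm :
    (Fin g → ℂ) →L[ℂ] EuclideanSpace ℂ (Fin g)).analyticAt _).comp h1

/-- comparison, in the other letters -/
theorem isoHol_ofH {d : ℕ} {E Γ E' Γ' : Type} [TopologicalSpace E] [Group Γ] [MulAction Γ E]
    [TopologicalSpace E'] [Group Γ'] [MulAction Γ' E'] {S : Sheets d E Γ} {S' : Sheets d E' Γ'}
    {τ : E ≃ₜ E'} {ρ : Γ ≃* Γ'} (h : CmpH S S' τ ρ) : H864.Toc.IsoHol S S' τ := by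
  intro i j z hz z' hz' γ he
  have key : ∀ e : E', τ.symm (γ • e) = ρ.symm γ • τ.symm e := fun e => h.symm_smul γ e
  have he' : S.σ i z = ρ.symm γ • τ.symm (S'.σ j z') := by
    rw [← key, ← he, τ.symm_apply_apply]
  obtain ⟨θ, h1, h2, h3, h4⟩ := h.hol i j z hz z' hz' (ρ.symm γ) he'
  refine ⟨θ, h1, h2, h3, ?_⟩
  filter_upwards [h4] with v hv
  have hv' : S.σ i v = ρ.symm γ • τ.symm (S'.σ j (θ v)) := hv
  rw [hv', ← key, τ.apply_symm_apply]

/-- the local data are immersed if the fibres are -/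
theorem imL_of (L : DLocC C m B g)
    (h : ∀ t ∈ L.T', IsImmE (p + d) p d m f (L.χ.symm t)) : ImL L := by
  intro i t ht z hz ξ hξ
  by_contra hne
  obtain ⟨E', Γ', _, _, _, _, _, _, 𝓕', q', χ', t', ht', hfin, hM', hy', hT⟩ := h t ht
  obtain ⟨τ, ρ, -, -, hc⟩ := compareC L.model hM' (L.hT' ht) ht' hy'.symm m
  have h4 : IsImmS (sub (L.𝓕.at t (L.hT' ht)) (core L.Γ m)) :=
    immS_iso (ρ := res ρ fun _ => map_core ρ m) hc.eqv (isoHol_ofH hc) fun j v hv =>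
      hT j v (ball13 (by simpa using hv))
  have hC2 := c2 (sub (L.𝓕.at t (L.hT' ht)) (core L.Γ m))
  obtain ⟨u, c, hu, hu'⟩ := h4 i z hz ξ hne
  obtain ⟨s, b', hs⟩ := H603.TE.exists_lin (L.bas t ht) hC2 hu
  apply hu'
  have h1 : (fun z => u ((sub (L.𝓕.at t (L.hT' ht)) (core L.Γ m)).σ i z)) =
      fun z => fnl s (HL L i (t, z)) + b' := by
    funext z
    rw [hs]
    congr 1
    exact (fnl_apply s _).symm
  have h2 : HasFDerivAt (fun z : Cm d => HL L i (t, z)) (dH (HL L) i t z) z := by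
    have h3 : AnalyticAt ℂ (fun z : Cm d => HL L i (t, z)) z :=
      AnalyticAt.fun_comp (g := HL L i) (f := fun z : Cm d => (t, z)) (HL_an L i ht hz)
        (analyticAt_const.prod analyticAt_id)
    exact h3.differentiableAt.hasFDerivAt
  have h3 : HasFDerivAt (fun z => fnl s (HL L i (t, z)) + b')
      ((fnl s).comp (dH (HL L) i t z)) z := ((fnl s).hasFDerivAt.comp z h2).add_const b'
  rw [h1, h3.fderiv, ContinuousLinearMap.comp_apply, dH_eq (HL_an L i ht hz), hξ, map_zero]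

/-- **the family of local data over `Y ∖ S`** -/
theorem exists_fam (I : Inputs) (hC1 : DGlobCStmt) (hd : 0 < d) (m : ℕ) (hw : C.Ok) {S : Set Y}
    {S₁ : Set C.Y₁} (hG : C.Good S S₁) (hne : Sᶜ.Nonempty)
    (him : ∀ y ∉ S, IsImmE (p + d) p d m f y) :
    ∃ (n g : ℕ) (_ : n = 2 * g) (B : Matrix (Fin n) (Fin n) ℝ)
      (L : {y // y ∉ S} → DLocC C m B g)
      (D : {y // y ∉ S} → ((Fin n → ℝ) ≃L[ℝ] EuclideanSpace ℂ (Fin g))),
      (∀ a, a.1 ∈ (L a).U) ∧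
      IsPeriodFamily (Cm p) S (Qf B) (fun a => (L a).U) (fun a => (L a).π (D a)) ∧
      (∀ a, ImL (L a)) ∧ (∀ a, IsPreconnected (L a).T') ∧ ∀ a, (L a).T'.Nonempty := by
  obtain ⟨n, g, hn, B, hL⟩ := hC1 p d m Z Y f C S S₁ hd hw hG hne
  have hL' : ∀ a : {y // y ∉ S}, ∃ L : DLocC C m B g, a.1 ∈ L.U ∧
      (∀ y ∈ L.U, y ∉ S) ∧ IsPreconnected L.T' ∧ L.T'.Nonempty := by
    intro a
    obtain ⟨L, h1, h2, h3⟩ := hL a.1 a.2
    obtain ⟨ε, hε, hb⟩ := Metric.isOpen_iff.1 L.isOpen' _ h2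
    refine ⟨shr L (ball (L.χ a.1) ε) hb isOpen_ball, ⟨h1, mem_ball_self hε⟩, ?_,
      (convex_ball _ _).isPreconnected, ⟨_, mem_ball_self hε⟩⟩
    rintro y ⟨h4, h5⟩
    have h6 := h3 _ (hb h5)
    have h7 : L.χ.symm (L.χ y) = y := L.χ.left_inv h4
    rw [← h7]
    exact h6
  choose L h4 hSU hTc hTn using hL'
  choose hB D hD using fun a => (L a).F2_at I.f2 hd hn (h4 a).2
  refine ⟨n, g, hn, B, L, D, h4, ⟨fun y => ⟨fun hy => ⟨⟨y, hy⟩, h4 ⟨y, hy⟩⟩, ?_⟩,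
    fun a => (L a).isOpen_U, fun a x y hy => DLocC.hol_π I.f2 hd hn (D a) x hy,
    fun a y hy => DLocC.polarized I.f2 hd hn (D a) hy⟩, fun a => ?_, hTc, hTn⟩
  · rintro ⟨a, ha⟩
    exact hSU a y ha
  · refine imL_of (L a) fun t ht => him _ ?_
    exact hSU a _ (symm_mem ht).1

theorem clm_an {b : ℕ} {P V : Type*} [NormedAddCommGroup P] [NormedSpace ℂ P]
    [NormedAddCommGroup V] [NormedSpace ℂ V] {J : P → EuclideanSpace ℂ (Fin b) →L[ℂ] V} {t : P}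
    (h : ∀ v, AnalyticAt ℂ (fun s => J s v) t) : AnalyticAt ℂ J t := by
  have h1 : J = fun s => ∑ i, (EuclideanSpace.proj i : EuclideanSpace ℂ (Fin b) →L[ℂ] ℂ).smulRight
      (J s (EuclideanSpace.single i 1)) := by
    funext s
    ext1 v
    rw [sum_apply]
    have h2 : v = ∑ i, v i • (EuclideanSpace.single i (1 : ℂ) : EuclideanSpace ℂ (Fin b)) := by
      ext a
      simp [Finset.sum_apply, Pi.single_apply]
    conv_lhs => rw [h2]
    rw [map_sum]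
    exact Finset.sum_congr rfl fun i _ => _root_.map_smul _ _ _
  rw [h1]
  refine Finset.analyticAt_fun_sum _ fun i _ => ?_
  exact ((ContinuousLinearMap.smulRightL ℂ (EuclideanSpace ℂ (Fin b)) V
    (EuclideanSpace.proj i)).analyticAt _).comp (h (EuclideanSpace.single i 1))

/-- **the flows** -/
theorem exists_flowL {L : DLocC C m B g} (h : ImL L) {U' : Set Y}
    (hU' : IsOpen U') {b : ℕ}
    {j : Y → EuclideanSpace ℂ (Fin b) →L[ℂ] EuclideanSpace ℂ (Fin g)}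
    (jhol : ∀ v, ∀ y ∈ U', ContMDiffAt 𝓘(ℂ, Cm p) 𝓘(ℂ, EuclideanSpace ℂ (Fin g)) ω
      (fun y => j y v) y)
    (tan : ∀ y ∈ U', ∀ x, ∀ e, Tan (FL L (L.χ y)) e (j y x)) :
    ∃ act, IsFlow L (L.T' ∩ L.χ.symm ⁻¹' U') (fun t => j (L.χ.symm t)) act := by
  have hsub : L.T' ∩ L.χ.symm ⁻¹' U' ⊆ L.T' := inter_subset_left
  have hTt : L.T' ⊆ L.χ.target := L.hT'.trans L.model.sub
  have hopen : IsOpen (L.T' ∩ L.χ.symm ⁻¹' U') := by
    have h1 : L.T' ∩ L.χ.symm ⁻¹' U' = L.T' ∩ (L.χ.target ∩ L.χ.symm ⁻¹' U') := by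
      ext t
      constructor
      · rintro ⟨h1, h2⟩
        exact ⟨h1, hTt h1, h2⟩
      · rintro ⟨h1, -, h2⟩
        exact ⟨h1, h2⟩
    rw [h1]
    exact L.isOpen'.inter (L.χ.isOpen_inter_preimage_symm hU')
  have hJ : ∀ t ∈ L.T' ∩ L.χ.symm ⁻¹' U', AnalyticAt ℂ (fun t => j (L.χ.symm t)) t := by
    rintro t ⟨ht, hy⟩
    refine clm_an fun v => ?_
    have h2 : ContMDiffAt 𝓘(ℂ, Cm p) 𝓘(ℂ, Cm p) ω L.χ.symm t :=
      contMDiffAt_symm_of_mem_maximalAtlas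
        (IsManifold.subset_maximalAtlas L.model.atlas) (hTt ht)
    have h3 : ContMDiffAt 𝓘(ℂ, Cm p) 𝓘(ℂ, EuclideanSpace ℂ (Fin g)) ω
        (fun t => j (L.χ.symm t) v) t :=
      ContMDiffAt.comp t (g := fun y => j y v) (f := L.χ.symm) (jhol v _ hy) h2
    exact h3.contDiffAt.analyticAt
  have hIF : ImmF (fsub L.𝓕 (core L.Γ m)) (L.T' ∩ L.χ.symm ⁻¹' U') (FL L) (cL L)
      (fun t => j (L.χ.symm t)) := by
    refine ((imm0L h).mono hsub hopen).immF hJ ?_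
    rintro t ⟨ht, hy⟩ v
    have h1 := tan _ hy v
    rw [(symm_mem ht).2] at h1
    exact (mem_BtL h ht).2 h1
  obtain ⟨act, b1, b2, b3, b4⟩ := hIF.exists_flow
  exact ⟨act, ⟨hsub, hIF, b1, b2, b3, b4⟩⟩

end Vale.Agent.P281.H152.UC
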