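import Vale.Agent.P281.H225.C.OrbL
import Vale.Agent.P281.H152.UC.Top
import Vale.Agent.P281.H383.C.Core

/-!
# P281, class C (helper152): `OrbCStmt` (port of H303/UD/OrbFin)
-/

open Set Filter Metric MeasureTheory Vale.Agent.P281 Vale.Agent.P281.H713 Vale.Agent.P272.K
open scoped Topology ContDiff Manifold ComplexConjugate NNReal

noncomputable section

namespace Vale.Agent.P281.H152.UC

open Vale.Agent.P281.H64 (Qf)
open Vale.Agent.P281.H64.TK Vale.Agent.P281.H603.K Vale.Agent.P281.H864.K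
open Vale.Agent.P281.H603.TE Vale.Agent.P281.H603.C
open Vale.Agent.P281.H303.UC (LinD isOrbM_of)
open Vale.Agent.P281.H383.C (OrbCStmt)

/-- **Block UG, class C** -/
theorem orbC (I : Inputs) (hC1 : DGlobCStmt) (hBC : BoundCStmt) : OrbCStmt := by
  intro p d m r Z Y _ _ _ _ _ _ _ _ _ f C S S₁ hd hw hG hN hN' him hne
  have hf := hw.hf
  obtain ⟨n, g, hn, B, L, D, -, hPF, hIm, hTc, hTn⟩ := exists_fam I hC1 hd m hw hG hne him
  obtain ⟨b, nb, QB, ι', s, U', ϖ, j, ℓ, ρ, Λ, hbr, hL, htan, hper, hch⟩ :=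
    exists_linL I hd hn hf hw hG.conn hne hPF hIm hTc hTn hN hN'
  have H : LinD L D S QB s U' ϖ j ℓ := ⟨hL.sub, hL.per, hL.famb, hL.lj, hL.jhol, hL.lhol,
    hL.norm, hL.rel, fun a y hy x => (htan a y hy _).1 ⟨x, rfl⟩, hper, hch⟩
  obtain ⟨u, hu⟩ := isOrbM_of hBC I hd hn hf hw hIm H
  refine ⟨g, n, b, nb, Qf B, QB, ι', U', _, ϖ, j, ℓ, _, u, hu, by omega, ?_⟩
  intro y hy a ha
  obtain ⟨q, v₀, hq, hqy, hβ⟩ := DLocC.nondegE I hd hf hw (H.sub a ha) (hN y hy) (hN' y hy)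
  exact ⟨q, v₀, hq, hqy, fun β hβ' => (hβ β hβ'.2).rank⟩

end Vale.Agent.P281.H152.UC
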