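import Vale.Agent.P281.H152.UC.OrbCmp
import Vale.Agent.P281.H152.R.Lam
import Vale.Agent.P281.H152.R.Dim

/-!
# P281, class C (helper152), port of T-UD, block R6, part 8: the local data `DLocE`.
-/

open Set Filter Metric MeasureTheory Vale.Agent.P281 Vale.Agent.P281.H713 Vale.Agent.P272.K
open scoped Topology ContDiff Manifold ComplexConjugate NNReal

noncomputable section

namespace Vale.Agent.P281.H152.UC

open Vale.Agent.P281.H64 (Mark Qf)
open Vale.Agent.P281.H64.TK Vale.Agent.P281.H603.K Vale.Agent.P281.H864.K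
open Vale.Agent.P281.H603.TE Vale.Agent.P281.H603.C
open Vale.Agent.P281.H152.R hiding Cm
open Vale.Agent.P281.H349.O (IsImm Tan bs Cpt Flat)
open Vale.Agent.P281.H303.UC (FL cL HL ImL NL IsCmp FL_add)
open Vale.Agent.P281.H303.UD.ImmF (Pth)

attribute [local instance] ccs

/-! ### Translations are tangent -/

section pth
variable {d : ℕ} {E V : Type} [TopologicalSpace E] [NormedAddCommGroup V] [NormedSpace ℂ V]
  {h : E → V} {m : V →L[ℂ] (Fin d → ℂ)} {ψ : OpenPartialHomeomorph E (Fin d → ℂ)}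

/-- the direction of a lifted segment is tangent -/
theorem tan_of_pth (H : Flat h m ψ) {e e' : E} (he : e ∈ ψ.source) {w : V}
    (hp : Pth h w e e') : Tan h e w := by
  obtain ⟨c, hc, hc0, -, hcF⟩ := hp
  rw [H.tan_iff he]
  have h01 : (0 : ℝ) ∈ Icc (0 : ℝ) 1 := ⟨le_rfl, zero_le_one⟩
  have h1 : HasDerivAt (fun s : ℝ => ψ e + (s : ℂ) • m w) (m w) 0 := by
    have h2 : HasDerivAt (fun s : ℝ => (s : ℂ) • m w) ((1 : ℂ) • m w) 0 :=
      (Complex.ofRealCLM.hasDerivAt (x := (0 : ℝ))).smul_const (m w)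
    rw [one_smul] at h2
    exact h2.const_add (ψ e)
  have h2 : HasFDerivAt (fun x => h (ψ.symm x)) (fderiv ℂ (fun x => h (ψ.symm x)) (ψ e))
      (ψ e + ((0 : ℝ) : ℂ) • m w) := by
    rw [Complex.ofReal_zero, zero_smul, add_zero]
    exact (H.an _ (ψ.map_source he)).differentiableAt.hasFDerivAt
  have h3 : HasDerivWithinAt (fun s : ℝ => h (ψ.symm (ψ e + (s : ℂ) • m w)))
      (fderiv ℂ (fun x => h (ψ.symm x)) (ψ e) (m w)) (Icc 0 1) 0 := by
    have h3 := (h2.restrictScalars ℝ).comp_hasDerivAt (0 : ℝ) h1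
    exact HasDerivAt.hasDerivWithinAt h3
  have h4 : HasDerivWithinAt (fun s : ℝ => h e + (s : ℂ) • w) w (Icc 0 1) 0 := by
    have h5 : HasDerivAt (fun s : ℝ => (s : ℂ) • w) ((1 : ℂ) • w) 0 :=
      (Complex.ofRealCLM.hasDerivAt (x := (0 : ℝ))).smul_const w
    rw [one_smul] at h5
    exact (h5.const_add (h e)).hasDerivWithinAt
  have h5 : ∀ᶠ s in 𝓝[Icc 0 1] (0 : ℝ), c s ∈ ψ.source :=
    (hc 0 h01).eventually (by
      show ∀ᶠ e' in 𝓝 (c 0), e' ∈ ψ.source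
      rw [hc0]
      exact ψ.open_source.mem_nhds he)
  have h6 : (fun s : ℝ => h (ψ.symm (ψ e + (s : ℂ) • m w))) =ᶠ[𝓝[Icc 0 1] (0 : ℝ)]
      fun s : ℝ => h e + (s : ℂ) • w := by
    filter_upwards [h5, self_mem_nhdsWithin] with s hs hs1
    have h7 : ψ e + (s : ℂ) • m w = ψ (c s) := by
      rw [H.eq _ he, H.eq _ hs, hcF s hs1, map_add, _root_.map_smul]
    rw [h7, ψ.left_inv hs, hcF s hs1]
  have h7 := (h3.congr_of_eventuallyEq h6.symm (by
    have := h6.self_of_nhdsWithin h01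
    exact this.symm))
  exact (uniqueDiffOn_Icc (zero_lt_one' ℝ) 0 h01).eq_deriv _ h7 h4

end pth

variable {p d : ℕ} {Z Y : Type} [TopologicalSpace Z] [T2Space Z] [ChartedSpace (Cm (p + d)) Z]
  [IsManifold 𝓘(ℂ, Cm (p + d)) ω Z] [TopologicalSpace Y] [T2Space Y] [ChartedSpace (Cm p) Y]
  [IsManifold 𝓘(ℂ, Cm p) ω Y] {f : Z → Y} {C : Ctx (p := p) (d := d) f} {m n g : ℕ}
  {B : Matrix (Fin n) (Fin n) ℝ} {L : DLocC C m B g}

/-! ### The family of the coverings -/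

/-- **(a1)** -/
theorem imm0L (h : ImL L) : Imm0 (fsub L.𝓕 (core L.Γ m)) L.T' (FL L) (cL L) where
  sub := L.hT'
  isOpen := L.isOpen'
  add := fun t ht κ e => FL_add L ht κ e
  hol := by
    intro i t ht z hz
    have h1 : AnalyticAt ℂ (fun q : Cm p × Cm d =>
        L.F q.1 ((fsub L.𝓕 (core L.Γ m)).σ i q.1 q.2)) (t, z) :=
      analyticAt_pi_iff.2 fun j => L.holF i t ht z hz j
    exact (((PiLp.continuousLinearEquiv 2 ℂ (fun _ : Fin g => ℂ)).symm :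
      (Fin g → ℂ) →L[ℂ] EuclideanSpace ℂ (Fin g)).analyticAt _).comp h1
  imm := h

theorem HF_eq (i : Fin (fsub L.𝓕 (core L.Γ m)).N) (q : Cm p × Cm d) :
    HF (fsub L.𝓕 (core L.Γ m)) (FL L) i q = HL L i q := rfl

theorem bs_eq (h : ImL L) {t : Cm p} (ht : t ∈ L.T') :
    bs ((imm0L h).isImm ht) = Bt (HL L) t := by
  ext v
  exact (imm0L h).mem_bs ht

/-- **(a)** the everywhere tangent vectors -/
theorem mem_BtL (h : ImL L) {t : Cm p} (ht : t ∈ L.T') {v : EuclideanSpace ℂ (Fin g)} :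
    v ∈ Bt (HL L) t ↔ ∀ e, Tan (FL L t) e v := by
  rw [← bs_eq h ht]
  exact H349.O.mem_bs _

/-- the periods of the translations are tangent -/
theorem mem_Bt_of_NL (h : ImL L) {t : Cm p} (ht : t ∈ L.T') {κ : core L.Γ m}
    (hκ : κ ∈ NL L t) : cL L t κ ∈ Bt (HL L) t := by
  rw [mem_BtL h ht]
  intro e
  obtain ⟨m', ψ, H, he⟩ := (imm0L h).isImm ht e
  exact tan_of_pth H he (hκ e)

variable (L) in
/-- the integral vector of an element of the group -/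
def kkL (κ : core L.Γ m) : Fin n → ℤ := fun k => L.M.φ k κ

theorem kkL_mul (a b : core L.Γ m) : kkL L (a * b) = kkL L a + kkL L b := by
  funext k
  exact L.M.hom k a b

/-- the periods in terms of the marking -/
theorem cL_eq {t : Cm p} (ht : t ∈ L.T') (κ : core L.Γ m) :
    cL L t κ = perMap L.M (L.c t) (zr (kkL L κ)) := by
  rw [cL, perMap]
  congr 1
  funext j
  have h1 := L.M.complex (c := fun γ => L.c t γ j) (fun a b => by
    obtain ⟨e⟩ : Nonempty L.E := inferInstance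
    have h2 := ((L.bas t ht).add j).add (a * b) e
    have h3 := ((L.bas t ht).add j).add a (b • e)
    have h4 := ((L.bas t ht).add j).add b e
    rw [mul_smul, h3, h4] at h2
    linear_combination -h2) κ
  rw [h1]
  refine Finset.sum_congr rfl fun k _ => ?_
  congr 1

/-- the periods -/
theorem π_zr (hF2 : F2Stmt) (hd : 0 < d) (hn : n = 2 * g)
    (D : (Fin n → ℝ) ≃L[ℝ] EuclideanSpace ℂ (Fin g)) {y : Y} (hy : y ∈ L.U) (κ : core L.Γ m) :
    L.π D y (zr (kkL L κ)) = cL L (L.χ y) κ := by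
  rw [DLocC.π_spec hF2 hd hn D hy, cL_eq hy.2]

theorem symm_mem {t : Cm p} (ht : t ∈ L.T') : L.χ.symm t ∈ L.U ∧ L.χ (L.χ.symm t) = t := by
  have h1 : t ∈ L.χ.target := L.model.sub (L.hT' ht)
  have h2 : L.χ (L.χ.symm t) = t := L.χ.right_inv h1
  exact ⟨⟨L.χ.map_target h1, by show L.χ (L.χ.symm t) ∈ L.T'; rw [h2]; exact ht⟩, h2⟩

/-! ### The dimension -/

/-- **(a2)** -/
theorem finrank_BtL (I : Inputs) (hd : 0 < d) (hf : ContMDiff 𝓘(ℂ, Cm (p + d)) 𝓘(ℂ, Cm p) ω f)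
    (hw : C.Ok) (h : ImL L) {y : Y} (hy : y ∈ L.U) {r : ℕ}
    (hN : H64.TK.TE.NDegE (p + d) p d m r f y)
    (hN' : ¬ H64.TK.TE.NDegE (p + d) p d m (r + 1) f y) :
    Module.finrank ℂ (Bt (HL L) (L.χ y)) + r = d := by
  obtain ⟨q, v₀, hq, hqy, hβ⟩ := L.nondegE I hd hf hw hy hN hN'
  have hq0 : f (q v₀) = y := hqy.self_of_nhds
  have hx : f (q v₀) ∈ L.U := by rw [hq0]; exact hy
  obtain ⟨β, hβl⟩ := DLocC.exists_isLift hx
  have hR := hβ β hβl
  have hqc : ContinuousAt q v₀ := hq.continuousAt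
  have hβhol := DLocC.IsLift.hol hf hβl
  obtain ⟨-, γ, i, ζ, ⟨h1, h2, h3⟩, h4⟩ := hβl
  rw [← bs_eq h hy.2]
  refine finrank_bs_of (E := L.E) (Γ := core L.Γ m) ((imm0L h).isImm hy.2) ((imm0L h).cpt hy.2)
    (σ := fun v => γ • L.𝓕.σ i (L.χ y) (ζ (q v))) (z := v₀) ?_ (g := fun v => β (q v)) ?_ ?_
    hR.rank hR.max
  · refine (continuous_const_smul γ).continuousAt.comp ?_
    have h5 : ContinuousAt (L.𝓕.σ i (L.χ y)) (ζ (q v₀)) := Sh.contAt (L.sh hy) i h2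
    exact ContinuousAt.comp (g := L.𝓕.σ i (L.χ y)) (f := fun v => ζ (q v)) h5
      (ContinuousAt.comp (g := ζ) (f := q) h1.continuousAt hqc)
  · have h5 : ContMDiffAt 𝓘(ℂ, Cm d) 𝓘(ℂ, EuclideanSpace ℂ (Fin g)) ω (fun v => β (q v)) v₀ :=
      ContMDiffAt.comp v₀ (g := β) (f := q) hβhol hq
    exact h5.contDiffAt.analyticAt
  · filter_upwards [hqc.eventually h4, hqy] with v a b
    rw [a, b]
    rfl

/-! ### The lattice -/

/-- **(b)** the lattice of the everywhere tangent vectors is constant -/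
theorem exists_LamL (hF2 : F2Stmt) (hd : 0 < d) (hn : n = 2 * g)
    (D : (Fin n → ℝ) ≃L[ℝ] EuclideanSpace ℂ (Fin g)) (h : ImL L) (hTc : IsPreconnected L.T')
    (hTn : L.T'.Nonempty) {b : ℕ} (hb : ∀ t ∈ L.T', Module.finrank ℂ (Bt (HL L) t) = b) :
    ∃ Λ : AddSubgroup (Fin n → ℤ),
      (∀ y ∈ L.U, ∀ x, L.π D y x ∈ Bt (HL L) (L.χ y) ↔
        x ∈ Submodule.span ℝ (H64.TD.zr '' (Λ : Set (Fin n → ℤ)))) ∧
      ∀ y ∈ L.U, ∀ k, k ∈ Λ ↔ ∃ κ ∈ NL L (L.χ y), L.π D y (H64.TD.zr k) = cL L (L.χ y) κ := by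
  have hπ : ∀ x, ∀ t ∈ L.T', AnalyticAt ℂ (fun s => L.π D (L.χ.symm s) x) t := by
    intro x t ht
    have h1 : AnalyticAt ℂ (fun s : Cm p => (fun j : Fin g => ∑ k, (x k : ℂ) * L.c s (L.M.g k) j))
        t := by
      refine analyticAt_pi_iff.2 fun j => ?_
      exact Finset.analyticAt_fun_sum _ fun k _ => analyticAt_const.mul (L.holc _ j t ht)
    have h2 : AnalyticAt ℂ (fun s => perMap L.M (L.c s) x) t :=
      (((PiLp.continuousLinearEquiv 2 ℂ (fun _ : Fin g => ℂ)).symm :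
        (Fin g → ℂ) →L[ℂ] EuclideanSpace ℂ (Fin g)).analyticAt _).comp h1
    refine h2.congr ?_
    filter_upwards [L.isOpen'.mem_nhds ht] with s hs
    obtain ⟨h3, h4⟩ := symm_mem hs
    rw [DLocC.π_spec hF2 hd hn D h3, h4]
  have hc : ∀ t ∈ L.T', ∀ κ, cL L t κ = L.π D (L.χ.symm t) (zr (kkL L κ)) := by
    intro t ht κ
    obtain ⟨h3, h4⟩ := symm_mem ht
    rw [π_zr hF2 hd hn D h3, h4]
  obtain ⟨Λ, -, h2, h3⟩ := (imm0L h).exists_Lam hTc hTn (kk := kkL L) kkL_mul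
    (π := fun t => L.π D (L.χ.symm t)) hπ hc hb
  refine ⟨Λ, ?_, ?_⟩
  · intro y hy x
    have h4 := h2 (L.χ y) hy.2 x
    rw [L.left_inv hy] at h4
    exact h4
  · intro y hy k
    have h4 := h3 (L.χ y) hy.2
    have h5 : k ∈ Λ ↔ k ∈ LamS (fsub L.𝓕 (core L.Γ m)) (FL L) (cL L) (kkL L) (L.χ y) := by
      rw [← h4]
      rfl
    rw [h5]
    constructor
    · rintro ⟨κ, rfl, -, hκ⟩
      exact ⟨κ, hκ, π_zr hF2 hd hn D hy κ⟩
    · rintro ⟨κ, hκ, hk⟩
      refine ⟨κ, ?_, mem_Bt_of_NL h hy.2 hκ, hκ⟩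
      rw [← π_zr hF2 hd hn D hy κ] at hk
      exact (zr_inj ((L.π D y).injective hk)).symm

end Vale.Agent.P281.H152.UC
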